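import Vale.Agent.P130.Main

open MeasureTheory in
/-- An invertible measure-preserving transformation of a standard nonatomic probability space
with simple Lebesgue spectrum: the functions `f ∘ T ^ n`, `n : ℤ`, form an orthonormal basis of
the mean-zero square integrable functions. -/
theorem Vale.Agent.Results.P130.A_simpleLebesgue.result :
    ∃ (X : Type) (_ : MeasurableSpace X) (_ : StandardBorelSpace X) (μ : Measure X)
      (_ : IsProbabilityMeasure μ) (T : X ≃ᵐ X) (f : X → ℂ),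
      (∀ x, μ {x} = 0) ∧ MeasurePreserving T μ μ ∧ MemLp f 2 μ ∧ ∫ x, f x ∂μ = 0 ∧
      (∀ m n : ℤ, ∫ x, f ((T.toEquiv ^ m : Equiv.Perm X) x) *
        (starRingEnd ℂ) (f ((T.toEquiv ^ n : Equiv.Perm X) x)) ∂μ = if m = n then 1 else 0) ∧
      ∀ g : X → ℂ, MemLp g 2 μ → ∫ x, g x ∂μ = 0 →
        (∀ n : ℤ, ∫ x, g x * (starRingEnd ℂ) (f ((T.toEquiv ^ n : Equiv.Perm X) x)) ∂μ = 0) →
        g =ᵐ[μ] 0 :=
  Vale.Agent.P130.main
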